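import Mathlib

/-!
P227: support functions and logarithmic combinations in coordinates.
-/

namespace Vale.Agent.P227

open MeasureTheory

variable {n : ℕ}

/-- The Euclidean scalar product. -/
def dot (u x : Fin n → ℝ) : ℝ := ∑ i, u i * x i

/-- The support function. -/
noncomputable def supp (K : Set (Fin n → ℝ)) (u : Fin n → ℝ) : ℝ := sSup (dot u '' K)

/-- The logarithmic combination with weights `a`, `b`. -/
def logComb (K L : Set (Fin n → ℝ)) (a b : ℝ) : Set (Fin n → ℝ) :=
  {x | ∀ u, dot u x ≤ supp K u ^ a * supp L u ^ b}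

/-- An origin-symmetric convex body. -/
structure Body (K : Set (Fin n → ℝ)) : Prop where
  compact : IsCompact K
  convex : Convex ℝ K
  sym : ∀ x ∈ K, -x ∈ K
  nonempty_interior : (interior K).Nonempty

lemma continuous_dot : Continuous fun p : (Fin n → ℝ) × (Fin n → ℝ) => dot p.1 p.2 := by
  unfold dot; fun_prop

lemma continuous_dot_right (u : Fin n → ℝ) : Continuous (dot u) := by
  unfold dot; fun_prop

lemma dot_neg_right (u x : Fin n → ℝ) : dot u (-x) = -dot u x := by
  simp [dot]

lemma dot_neg_left (u x : Fin n → ℝ) : dot (-u) x = -dot u x := by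
  simp [dot]

lemma dot_smul_left (c : ℝ) (u x : Fin n → ℝ) : dot (c • u) x = c * dot u x := by
  simp [dot, Finset.mul_sum, mul_assoc]

namespace Body

variable {K : Set (Fin n → ℝ)} (hK : Body K)
include hK

lemma zero_mem_interior : (0 : Fin n → ℝ) ∈ interior K := by
  obtain ⟨x, hx⟩ := hK.nonempty_interior
  have h := hK.convex.combo_interior_self_mem_interior hx (hK.sym x (interior_subset hx))
    (show (0 : ℝ) < 1 / 2 by norm_num) (show (0 : ℝ) ≤ 1 / 2 by norm_num) (by norm_num)
  simpa using h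

lemma zero_mem : (0 : Fin n → ℝ) ∈ K := interior_subset hK.zero_mem_interior

lemma nonempty : K.Nonempty := ⟨0, hK.zero_mem⟩

lemma le_supp {x : Fin n → ℝ} (u : Fin n → ℝ) (hx : x ∈ K) : dot u x ≤ supp K u :=
  le_csSup (hK.compact.image (continuous_dot_right u)).bddAbove ⟨x, hx, rfl⟩

lemma exists_supp (u : Fin n → ℝ) : ∃ x ∈ K, dot u x = supp K u :=
  (hK.compact.image (continuous_dot_right u)).sSup_mem (hK.nonempty.image _)

lemma supp_nonneg (u : Fin n → ℝ) : 0 ≤ supp K u := by
  simpa [dot] using hK.le_supp u hK.zero_mem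

lemma supp_neg (u : Fin n → ℝ) : supp K (-u) = supp K u := by
  refine le_antisymm ?_ ?_
  · obtain ⟨x, hx, he⟩ := hK.exists_supp (-u)
    rw [← he, dot_neg_left, ← dot_neg_right]
    exact hK.le_supp u (hK.sym x hx)
  · obtain ⟨x, hx, he⟩ := hK.exists_supp u
    rw [← he, show dot u x = dot (-u) (-x) by rw [dot_neg_left, dot_neg_right, neg_neg]]
    exact hK.le_supp _ (hK.sym x hx)

lemma supp_smul {c : ℝ} (hc : 0 ≤ c) (u : Fin n → ℝ) : supp K (c • u) = c * supp K u := by
  refine le_antisymm ?_ ?_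
  · obtain ⟨x, hx, he⟩ := hK.exists_supp (c • u)
    rw [← he, dot_smul_left]
    exact mul_le_mul_of_nonneg_left (hK.le_supp u hx) hc
  · obtain ⟨x, hx, he⟩ := hK.exists_supp u
    rw [← he, ← dot_smul_left]
    exact hK.le_supp _ hx

lemma continuous_supp : Continuous (supp K) :=
  hK.compact.continuous_sSup continuous_dot

lemma supp_pos {u : Fin n → ℝ} (hu : u ≠ 0) : 0 < supp K u := by
  obtain ⟨r, hr, hball⟩ :=
    Metric.mem_nhds_iff.1 (isOpen_interior.mem_nhds hK.zero_mem_interior)
  set c := r / (2 * ‖u‖)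
  have hnu : 0 < ‖u‖ := norm_pos_iff.2 hu
  have hc : 0 < c := by positivity
  have hmem : c • u ∈ K := by
    refine interior_subset (hball ?_)
    rw [mem_ball_zero_iff, norm_smul, Real.norm_of_nonneg hc.le]
    simp only [c]
    field_simp
    linarith
  refine lt_of_lt_of_le ?_ (hK.le_supp u hmem)
  obtain ⟨i, hi⟩ : ∃ i, u i ≠ 0 := Function.ne_iff.1 hu
  refine Finset.sum_pos' (fun j _ => ?_) ⟨i, Finset.mem_univ i, ?_⟩
  · simp only [Pi.smul_apply, smul_eq_mul]
    nlinarith [mul_self_nonneg (u j)]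
  · simp only [Pi.smul_apply, smul_eq_mul]
    nlinarith [mul_self_pos.2 hi]

lemma volume_pos : 0 < volume K :=
  Measure.measure_pos_of_nonempty_interior _ hK.nonempty_interior

lemma volume_ne_top : volume K ≠ ⊤ := hK.compact.measure_lt_top.ne

end Body

lemma isClosed_logComb (K L : Set (Fin n → ℝ)) (a b : ℝ) : IsClosed (logComb K L a b) := by
  simp only [logComb, Set.ofPred_forall]
  exact isClosed_iInter fun u => isClosed_le (continuous_dot_right u) continuous_const

end Vale.Agent.P227
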