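import Vale.Agent.P227.Step

/-!
P227: linear images and the endpoints of the parameter.
-/

namespace Vale.Agent.P227

open MeasureTheory Set Function
open scoped ENNReal

variable {n : ℕ}

lemma supp_image (T : (Fin n → ℝ) ≃ₗ[ℝ] (Fin n → ℝ)) (K : Set (Fin n → ℝ)) (u : Fin n → ℝ) :
    supp (T '' K) (fun i => dot u (T.symm (Pi.single i 1))) = supp K u ∧
      ∀ x, dot (fun i => dot u (T.symm (Pi.single i 1))) (T x) = dot u x := by
  have key : ∀ z, dot (fun i => dot u (T.symm (Pi.single i 1))) z = dot u (T.symm z) := by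
    intro z
    conv_rhs => rw [pi_eq_sum_univ' z]
    simp only [map_sum, map_smul, dot, Finset.sum_apply, Pi.smul_apply, smul_eq_mul,
      Finset.mul_sum, Finset.sum_mul]
    rw [Finset.sum_comm]
    refine Finset.sum_congr rfl fun i _ => Finset.sum_congr rfl fun j _ => ?_
    ring
  have hx : ∀ x, dot (fun i => dot u (T.symm (Pi.single i 1))) (T x) = dot u x := fun x => by
    rw [key, LinearEquiv.symm_apply_apply]
  refine ⟨?_, hx⟩
  rw [supp, supp, image_image]
  exact congrArg sSup (image_congr fun x _ => hx x)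

lemma body_image (T : (Fin n → ℝ) ≃ₗ[ℝ] (Fin n → ℝ)) {K : Set (Fin n → ℝ)} (hK : Body K) :
    Body (T '' K) := by
  refine ⟨hK.compact.image T.toContinuousLinearEquiv.continuous,
    hK.convex.linear_image T.toLinearMap, ?_, ?_⟩
  · rintro _ ⟨x, hx, rfl⟩
    exact ⟨-x, hK.sym x hx, map_neg T x⟩
  · have h := T.toContinuousLinearEquiv.toHomeomorph.image_interior K
    exact (hK.nonempty_interior.image T).mono h.subset

theorem lbm_linear {k : ℕ} (T : (Fin (k + 2) → ℝ) ≃ₗ[ℝ] (Fin (k + 2) → ℝ))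
    {K L : Set (Fin (k + 2) → ℝ)} (hK : Body K) (hL : Body L)
    (hKr : ∀ i : Fin (k + 2), (i : ℕ) < k → ∀ x ∈ K, T.symm (update (T x) i (-T x i)) ∈ K)
    (hLr : ∀ i : Fin (k + 2), (i : ℕ) < k → ∀ x ∈ L, T.symm (update (T x) i (-T x i)) ∈ L)
    {t : ℝ} (ht : t ∈ Icc (0 : ℝ) 1) :
    volume K ^ (1 - t) * volume L ^ t ≤ volume (logComb K L (1 - t) t) := by
  rcases eq_or_lt_of_le ht.1 with rfl | h0
  · rw [sub_zero, ENNReal.rpow_one, ENNReal.rpow_zero, mul_one]
    refine measure_mono fun x hx u => ?_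
    simpa using hK.le_supp u hx
  rcases eq_or_lt_of_le ht.2 with rfl | h1
  · rw [sub_self, ENNReal.rpow_one, ENNReal.rpow_zero, one_mul]
    refine measure_mono fun x hx u => ?_
    simpa using hL.le_supp u hx
  have hrefl : ∀ M : Set (Fin (k + 2) → ℝ),
      (∀ i : Fin (k + 2), (i : ℕ) < k → ∀ x ∈ M, T.symm (update (T x) i (-T x i)) ∈ M) →
      Refl k (T '' M) := by
    rintro M hM i hi _ ⟨x, hx, rfl⟩
    exact ⟨_, hM i hi x hx, T.apply_symm_apply _⟩
  have key := lbm_refl (sub_pos.2 h1) h0 (by ring) k _ _ (body_image T hK) (body_image T hL)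
    (hrefl K hKr) (hrefl L hLr)
  have hsub : logComb (T '' K) (T '' L) (1 - t) t ⊆ T '' logComb K L (1 - t) t := by
    intro z hz
    refine ⟨T.symm z, fun u => ?_, T.apply_symm_apply z⟩
    have h := hz fun i => dot u (T.symm (Pi.single i 1))
    rw [(supp_image T K u).1, (supp_image T L u).1] at h
    rw [← (supp_image T K u).2 (T.symm z), T.apply_symm_apply]
    exact h
  have key' := key.trans (measure_mono hsub)
  have him : ∀ M : Set (Fin (k + 2) → ℝ), volume (T '' M)
      = ENNReal.ofReal |LinearMap.det T.toLinearMap| * volume M := fun M =>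
    Measure.addHaar_image_linearMap _ T.toLinearMap M
  set d := ENNReal.ofReal |LinearMap.det T.toLinearMap|
  have hd0 : d ≠ 0 := by
    simp only [d, ne_eq, ENNReal.ofReal_eq_zero, not_le]
    exact abs_pos.2 (LinearEquiv.isUnit_det' T).ne_zero
  rw [him, him, him, ENNReal.mul_rpow_of_nonneg _ _ (sub_nonneg.2 ht.2),
    ENNReal.mul_rpow_of_nonneg _ _ ht.1, mul_mul_mul_comm,
    ← ENNReal.rpow_add _ _ hd0 ENNReal.ofReal_ne_top, sub_add_cancel, ENNReal.rpow_one] at key'
  exact (ENNReal.mul_le_mul_iff_right hd0 ENNReal.ofReal_ne_top).1 key'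

end Vale.Agent.P227
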