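import Vale.Agent.P227.Defs
import Vale.Agent.P262.Prekopa

/-!
P227: the multiplicative Prekopa-Leindler inequality on the half-line and two elementary facts.
-/

namespace Vale.Agent.P227

open MeasureTheory Set
open scoped ENNReal

/-- Prekopa-Leindler on the half-line for weighted geometric means. -/
theorem pl_geom {a b : ℝ} (ha : 0 < a) (hb : 0 < b) (hab : a + b = 1) {f g h : ℝ → ℝ≥0∞}
    (hf : Measurable f) (hg : Measurable g) (hh : Measurable h)
    (hle : ∀ s r, 0 < s → 0 < r → f s ^ a * g r ^ b ≤ h (s ^ a * r ^ b)) :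
    (∫⁻ x in Ioi (0 : ℝ), f x) ^ a * (∫⁻ x in Ioi (0 : ℝ), g x) ^ b
      ≤ ∫⁻ x in Ioi (0 : ℝ), h x := by
  set T : (ℝ → ℝ≥0∞) → ℝ → ℝ≥0∞ := fun u y => ENNReal.ofReal (Real.exp y) * u (Real.exp y) with hT
  have hTm : ∀ u, Measurable u → Measurable (T u) := fun u hu =>
    Real.measurable_exp.ennreal_ofReal.mul (hu.comp Real.measurable_exp)
  have hTi : ∀ u, ∫⁻ x, T u x = ∫⁻ x in Ioi (0 : ℝ), u x := fun u => by
    have h := lintegral_image_eq_lintegral_abs_deriv_mul (s := univ) (f := Real.exp)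
      (f' := Real.exp) MeasurableSet.univ
      (fun x _ => (Real.hasDerivAt_exp x).hasDerivWithinAt) Real.exp_injective.injOn u
    rw [image_univ, Real.range_exp, setLIntegral_univ] at h
    rw [h]
    exact lintegral_congr fun x => by simp only [hT, abs_of_pos (Real.exp_pos x)]
  have key := Vale.Agent.P262.pl_real ha hb hab (hTm f hf) (hTm g hg) (hTm h hh) ?_
  · rwa [hTi, hTi, hTi] at key
  intro x y
  have he : Real.exp x ^ a * Real.exp y ^ b = Real.exp (a * x + b * y) := by
    rw [← Real.exp_mul, ← Real.exp_mul, ← Real.exp_add]; ring_nf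
  simp only [hT]
  rw [ENNReal.mul_rpow_of_nonneg _ _ ha.le, ENNReal.mul_rpow_of_nonneg _ _ hb.le,
    ENNReal.ofReal_rpow_of_pos (Real.exp_pos x), ENNReal.ofReal_rpow_of_pos (Real.exp_pos y),
    mul_mul_mul_comm, ← ENNReal.ofReal_mul (by positivity), he]
  refine mul_le_mul' le_rfl ?_
  exact (hle _ _ (Real.exp_pos x) (Real.exp_pos y)).trans_eq (by rw [he])

/-- The geometric mean is superadditive. -/
lemma geom_add_le {a b : ℝ} (ha : 0 < a) (hb : 0 < b) (hab : a + b = 1) {A B C D : ℝ} (hA : 0 ≤ A)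
    (hB : 0 ≤ B) (hC : 0 ≤ C) (hD : 0 ≤ D) :
    A ^ a * B ^ b + C ^ a * D ^ b ≤ (A + C) ^ a * (B + D) ^ b := by
  rcases eq_or_lt_of_le (add_nonneg hA hC) with h | h
  · have h1 : A = 0 := by linarith
    have h2 : C = 0 := by linarith
    simp [h1, h2, Real.zero_rpow ha.ne']
  rcases eq_or_lt_of_le (add_nonneg hB hD) with h' | h'
  · have h1 : B = 0 := by linarith
    have h2 : D = 0 := by linarith
    simp [h1, h2, Real.zero_rpow hb.ne']
  have e1 := Real.geom_mean_le_arith_mean2_weighted ha.le hb.le (div_nonneg hA h.le)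
    (div_nonneg hB h'.le) hab
  have e2 := Real.geom_mean_le_arith_mean2_weighted ha.le hb.le (div_nonneg hC h.le)
    (div_nonneg hD h'.le) hab
  rw [Real.div_rpow hA h.le, Real.div_rpow hB h'.le, div_mul_div_comm] at e1
  rw [Real.div_rpow hC h.le, Real.div_rpow hD h'.le, div_mul_div_comm] at e2
  have e3 : a * (A / (A + C)) + b * (B / (B + D)) + (a * (C / (A + C)) + b * (D / (B + D))) = 1 := by
    field_simp
    linear_combination ((A + C) * (B + D)) * hab
  have hpos : 0 < (A + C) ^ a * (B + D) ^ b := by positivity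
  have e4 := add_le_add e1 e2
  rw [← add_div, e3, div_le_one hpos] at e4
  exact e4

end Vale.Agent.P227
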