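import Vale.Agent.P227.Strip

/-!
P227: the area of the strip intersection is log-concave along geometric paths.
-/

namespace Vale.Agent.P227

open Finset MeasureTheory Filter Topology

/-- The path `t ↦ exp (c + s t)` of half-widths. -/
noncomputable def path (c s : ℝ → ℝ) (t : ℝ) (m : ℝ) : ℝ := Real.exp (c m + s m * t)

theorem area_path_ge {S : Finset ℝ} (hS : S.Nonempty) {a b : ℝ} (ha : a ∈ S) (hb : b ∈ S)
    (hab : a < b) (c s : ℝ → ℝ) {R : ℝ} (hR0 : 0 < R)
    (hR : ∀ t ∈ Set.Icc (0 : ℝ) 1, path c s t a + path c s t b ≤ (b - a) * R)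
    {τ : ℝ} (hτ : τ ∈ Set.Icc (0 : ℝ) 1) :
    0 < area S hS (path c s τ) R ∧
      (1 - τ) * Real.log (area S hS (path c s 0) R) + τ * Real.log (area S hS (path c s 1) R)
        ≤ Real.log (area S hS (path c s τ) R) := by
  have hpath : ∀ m, Continuous fun t => path c s t m := fun m => by unfold path; fun_prop
  have hcontA : Continuous fun t => area S hS (path c s t) R := by
    have h1 : Continuous fun p : ℝ × ℝ => max (hgt S hS (path c s p.1) p.2) 0 := by
      refine Continuous.max ?_ continuous_const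
      have he : Continuous fun p : ℝ × ℝ => env S hS (path c s p.1) p.2 :=
        Continuous.finset_inf'_apply hS fun m _ => by unfold path; fun_prop
      unfold hgt
      exact he.add (he.comp (continuous_fst.prodMk continuous_snd.neg))
    exact intervalIntegral.continuous_parametric_intervalIntegral_of_continuous' h1 _ _
  set A : ℝ → ℝ := fun t => area S hS (path c s t) R with hA
  have hApos : ∀ t, 0 < A t := fun t => by
    refine intervalIntegral.integral_pos (by linarith)
      (continuous_hgt.max continuous_const).continuousOn (fun x _ => le_max_right _ _)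
      ⟨0, ⟨by linarith, hR0.le⟩, lt_max_of_lt_left (hgt_zero_pos fun m _ => Real.exp_pos _)⟩
  refine ⟨hApos τ, ?_⟩
  by_contra hlt
  rw [not_le] at hlt
  set L0 := Real.log (A 0)
  set L1 := Real.log (A 1)
  set d : ℝ := (1 - τ) * L0 + τ * L1 - Real.log (A τ)
  have hd : 0 < d := by simp only [d, L0, L1, hA]; linarith
  set φ : ℝ → ℝ := fun t => Real.log (A t) - ((1 - t) * L0 + t * L1) + d * (t * (1 - t)) with hφ
  have hφc : Continuous φ :=
    ((hcontA.log fun t => (hApos t).ne').sub (by fun_prop)).add (by fun_prop)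
  obtain ⟨t0, ht0, hmin⟩ :=
    (isCompact_Icc (a := (0 : ℝ)) (b := 1)).exists_isMinOn ⟨τ, hτ⟩ hφc.continuousOn
  have hneg : φ τ < 0 := by
    have h1 : d * (τ * (1 - τ)) ≤ d * (1 / 4) :=
      mul_le_mul_of_nonneg_left (by nlinarith [sq_nonneg (τ - 1 / 2)]) hd.le
    simp only [hφ, d] at h1 ⊢
    simp only [d] at hd
    linarith
  have hmin' : ∀ t ∈ Set.Icc (0 : ℝ) 1, φ t0 ≤ φ t := hmin
  have hne0 : t0 ≠ 0 := fun h => by
    have := hmin' τ hτ
    have h2 : φ t0 = 0 := by simp [hφ, h, L0]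
    linarith
  have hne1 : t0 ≠ 1 := fun h => by
    have := hmin' τ hτ
    have h2 : φ t0 = 0 := by simp [hφ, h, L1]
    linarith
  have hin : t0 ∈ Set.Ioo (0 : ℝ) 1 :=
    ⟨lt_of_le_of_ne ht0.1 hne0.symm, lt_of_le_of_ne ht0.2 hne1⟩
  obtain ⟨N, m, hAct, hsub, heq⟩ :=
    exists_active (hS := hS) (f := path c s t0) (fun m _ => Real.exp_pos _) ha hb hab
  set w : ℝ → ℕ → ℝ := fun t j => path c s t (m j) with hw
  have hwc : ∀ j, Continuous fun t => w t j := fun j => hpath (m j)
  have hvc : ∀ j, Continuous fun t => vtx N m (w t) j := by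
    intro j
    unfold vtx
    split_ifs
    · exact (((hwc 0).add (hwc N)).div_const _).neg
    · exact ((hwc j).sub (hwc (j - 1))).div_const _
    · exact ((hwc 0).add (hwc N)).div_const _
  have hev : ∀ᶠ t in 𝓝 t0, t ∈ Set.Ioo (0 : ℝ) 1 ∧
      ∀ j ∈ range (N + 1), vtx N m (w t) j < vtx N m (w t) (j + 1) := by
    refine (isOpen_Ioo.eventually_mem hin).and ?_
    rw [Finset.eventually_all]
    intro j hj
    exact (hvc j).continuousAt.eventually_lt (hvc (j + 1)).continuousAt
      (hAct.inc j (Nat.lt_succ_iff.1 (mem_range.1 hj)))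
  obtain ⟨δ, hδ, hball⟩ := Metric.eventually_nhds_iff_ball.1 hev
  have hAct' : ∀ t ∈ Metric.ball t0 δ, Active N m (path c s t) := fun t ht =>
    ⟨hAct.pos, hAct.mono, fun j hj => (hball t ht).2 j (mem_range.2 (by omega))⟩
  have hwin : ∀ t ∈ Set.Icc (0 : ℝ) 1, ∀ R', R ≤ R' → A t = area S hS (path c s t) R' := by
    intro t ht R' hRR'
    refine (integral_inner (continuous_hgt.max continuous_const) hRR' hR0.le fun x hx => ?_).symm
    exact max_eq_right (hgt_nonpos_of_far ha hb hab
      ((hR t ht).trans (mul_le_mul_of_nonneg_left hx (sub_pos.2 hab).le)))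
  set G : ℝ → ℝ := fun t => Real.log (bil N m (w t) (w t)) with hG
  have hGA : ∀ t ∈ Metric.ball t0 δ, Real.log (A t) ≤ G t := by
    intro t ht
    have hI := (hball t ht).1
    refine Real.log_le_log (hApos t) ?_
    rw [hwin t ⟨hI.1.le, hI.2.le⟩ _ (le_max_left R
      ((path c s t (m 0) + path c s t (m N)) / (m N - m 0)))]
    exact (hAct' t ht).area_le (fun j _ => Real.exp_pos _) hsub
      (le_trans hR0.le (le_max_left _ _)) (le_max_right _ _)
  have hG0 : G t0 = Real.log (A t0) := by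
    rw [hG, hwin t0 ht0 _ (le_max_left R
      ((path c s t0 (m 0) + path c s t0 (m N)) / (m N - m 0))), heq _ (le_max_right _ _),
      hAct.area_eq (fun j _ => Real.exp_pos _) (le_max_right _ _)]
  have hGc : ConcaveOn ℝ (Metric.ball t0 δ) G :=
    concaveOn_log_bil (c := fun j => c (m j)) (s := fun j => s (m j)) (convex_ball t0 δ) hAct.mono
      fun t ht => (hAct' t ht).inc
  have hp : t0 + δ / 2 ∈ Metric.ball t0 δ := by
    rw [Metric.mem_ball, Real.dist_eq, add_sub_cancel_left, abs_of_pos (by linarith)]; linarith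
  have hq : t0 - δ / 2 ∈ Metric.ball t0 δ := by
    rw [Metric.mem_ball, Real.dist_eq, sub_sub_cancel_left, abs_neg, abs_of_pos (by linarith)]
    linarith
  have hconc := hGc.2 hp hq (show (0 : ℝ) ≤ 1 / 2 by norm_num) (show (0 : ℝ) ≤ 1 / 2 by norm_num)
    (by norm_num)
  simp only [smul_eq_mul] at hconc
  rw [show (1 / 2 : ℝ) * (t0 + δ / 2) + 1 / 2 * (t0 - δ / 2) = t0 by ring, hG0] at hconc
  have hp' := (hball _ hp).1
  have hq' := (hball _ hq).1
  have m1 := hmin' _ ⟨hp'.1.le, hp'.2.le⟩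
  have m2 := hmin' _ ⟨hq'.1.le, hq'.2.le⟩
  have g1 := hGA _ hp
  have g2 := hGA _ hq
  simp only [hφ] at m1 m2
  nlinarith [mul_pos hd (pow_pos hδ 2)]

end Vale.Agent.P227
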