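import Vale.Agent.P227.Defs
import Vale.Agent.P227.Path

/-!
P227: the logarithmic Brunn-Minkowski inequality in the plane.
-/

namespace Vale.Agent.P227

open Finset MeasureTheory Filter Topology

/-- The strip intersection in coordinates. -/
def strips (S : Finset ℝ) (f : ℝ → ℝ) : Set (Fin 2 → ℝ) :=
  {x | ∀ m ∈ S, |dot ![m, 1] x| ≤ f m}

lemma dot_vec (m : ℝ) (x : Fin 2 → ℝ) : dot ![m, 1] x = m * x 0 + x 1 := by
  simp [dot, Fin.sum_univ_two]

lemma isClosed_strips (S : Finset ℝ) (f : ℝ → ℝ) : IsClosed (strips S f) := by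
  simp only [strips, Set.ofPred_forall]
  exact isClosed_biInter fun m _ =>
    isClosed_le (continuous_dot_right _).abs continuous_const

lemma volume_strips {S : Finset ℝ} (hS : S.Nonempty) {f : ℝ → ℝ} {a b : ℝ} (ha : a ∈ S)
    (hb : b ∈ S) (hab : a < b) {R : ℝ} (hR0 : 0 ≤ R) (hR : f a + f b ≤ (b - a) * R) :
    volume (strips S f) = ENNReal.ofReal (area S hS f R) := by
  set U := env S hS f with hU
  set Ω : Set (ℝ × ℝ) := {p | -U (-p.1) ≤ p.2 ∧ p.2 ≤ U p.1} with hΩ
  have hUc : Continuous U := continuous_env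
  have hΩc : IsClosed Ω :=
    (isClosed_le ((hUc.comp continuous_fst.neg).neg) continuous_snd).inter
      (isClosed_le continuous_snd (hUc.comp continuous_fst))
  have hpre : strips S f = MeasurableEquiv.finTwoArrow ⁻¹' Ω := by
    ext x
    simp only [strips, hΩ, hU, env, Set.mem_ofPred_eq, Set.mem_preimage, dot_vec,
      MeasurableEquiv.finTwoArrow_apply, Finset.le_inf'_iff, neg_le, abs_le]
    refine ⟨fun h => ⟨fun m hm => ?_, fun m hm => ?_⟩, fun h m hm => ⟨?_, ?_⟩⟩
    · linarith [(h m hm).1]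
    · linarith [(h m hm).2]
    · linarith [h.1 m hm]
    · linarith [h.2 m hm]
  rw [hpre, (volume_preserving_finTwoArrow ℝ).measure_preimage hΩc.measurableSet.nullMeasurableSet,
    Measure.volume_eq_prod, Measure.prod_apply hΩc.measurableSet]
  have hsec : ∀ x : ℝ, volume (Prod.mk x ⁻¹' Ω) = ENNReal.ofReal (hgt S hS f x) := by
    intro x
    have : Prod.mk x ⁻¹' Ω = Set.Icc (-U (-x)) (U x) := rfl
    rw [this, Real.volume_Icc, hgt, hU, sub_neg_eq_add]
  simp only [hsec]
  have hmc : Continuous fun x => max (hgt S hS f x) 0 := continuous_hgt.max continuous_const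
  rw [area, intervalIntegral.integral_of_le (by linarith),
    ofReal_integral_eq_lintegral_ofReal hmc.integrableOn_Ioc
      (ae_of_all _ fun x => le_max_right _ _),
    ← lintegral_indicator measurableSet_Ioc]
  refine lintegral_congr fun x => ?_
  by_cases hx : x ∈ Set.Ioc (-R) R
  · rw [Set.indicator_of_mem hx, ENNReal.ofReal_max, ENNReal.ofReal_zero, max_eq_left zero_le]
  · rw [Set.indicator_of_notMem hx, ENNReal.ofReal_eq_zero]
    refine hgt_nonpos_of_far ha hb hab (hR.trans (mul_le_mul_of_nonneg_left ?_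
      (sub_pos.2 hab).le))
    rw [Set.mem_Ioc, not_and_or, not_lt, not_le] at hx
    rcases hx with h | h
    · exact le_trans (by linarith) (neg_le_abs x)
    · exact h.le.trans (le_abs_self x)

lemma vec_ne_zero (m : ℝ) : (![m, 1] : Fin 2 → ℝ) ≠ 0 := fun h => by
  simpa using congrFun h 1

lemma finite_step {K L : Set (Fin 2 → ℝ)} (hK : Body K) (hL : Body L) {S : Finset ℝ}
    (h0 : (0 : ℝ) ∈ S) (h1 : (1 : ℝ) ∈ S) {a b : ℝ} (ha : 0 < a) (hb : 0 < b) (hab : a + b = 1) :
    volume K ^ a * volume L ^ b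
      ≤ volume (strips S fun m => supp K ![m, 1] ^ a * supp L ![m, 1] ^ b) ∧
    volume (strips S fun m => supp K ![m, 1] ^ a * supp L ![m, 1] ^ b) ≠ ⊤ := by
  have hS : S.Nonempty := ⟨0, h0⟩
  set p : ℝ → ℝ := fun m => supp K ![m, 1] with hp
  set q : ℝ → ℝ := fun m => supp L ![m, 1] with hq
  have hp0 : ∀ m, 0 < p m := fun m => hK.supp_pos (vec_ne_zero m)
  have hq0 : ∀ m, 0 < q m := fun m => hL.supp_pos (vec_ne_zero m)
  set c : ℝ → ℝ := fun m => Real.log (p m) with hc
  set s : ℝ → ℝ := fun m => Real.log (q m) - Real.log (p m) with hs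
  have hpath : ∀ t, path c s t = fun m => p m ^ (1 - t) * q m ^ t := by
    intro t
    funext m
    rw [Real.rpow_def_of_pos (hp0 m), Real.rpow_def_of_pos (hq0 m), ← Real.exp_add, path, hc, hs]
    congr 1
    ring
  set R := p 0 + q 0 + (p 1 + q 1) with hRdef
  have hR0 : 0 < R := by
    simp only [R]; linarith [hp0 0, hq0 0, hp0 1, hq0 1]
  have hR : ∀ t ∈ Set.Icc (0 : ℝ) 1, path c s t 0 + path c s t 1 ≤ (1 - 0) * R := by
    intro t ht
    have key : ∀ m, p m ^ (1 - t) * q m ^ t ≤ p m + q m := fun m =>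
      (Real.geom_mean_le_arith_mean2_weighted (by linarith [ht.2]) ht.1 (hp0 m).le (hq0 m).le
        (by ring)).trans (by nlinarith [hp0 m, hq0 m, ht.1, ht.2])
    rw [hpath]
    simp only [R]
    linarith [key 0, key 1]
  have hbI : b ∈ Set.Icc (0 : ℝ) 1 := ⟨hb.le, by linarith⟩
  obtain ⟨hpos, hmain⟩ := area_path_ge hS h0 h1 zero_lt_one c s hR0 hR hbI
  have hA : ∀ t ∈ Set.Icc (0 : ℝ) 1, volume (strips S (path c s t))
      = ENNReal.ofReal (area S hS (path c s t) R) := fun t ht =>
    volume_strips hS h0 h1 zero_lt_one hR0.le (hR t ht)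
  have hKs : K ⊆ strips S (path c s 0) := by
    intro x hx m _
    rw [hpath]
    simp only [sub_zero, Real.rpow_one, Real.rpow_zero, mul_one, abs_le, hp]
    exact ⟨by linarith [hK.le_supp ![m, 1] (hK.sym x hx), dot_neg_right ![m, 1] x],
      hK.le_supp _ hx⟩
  have hLs : L ⊆ strips S (path c s 1) := by
    intro x hx m _
    rw [hpath]
    simp only [sub_self, Real.rpow_one, Real.rpow_zero, one_mul, abs_le, hq]
    exact ⟨by linarith [hL.le_supp ![m, 1] (hL.sym x hx), dot_neg_right ![m, 1] x],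
      hL.le_supp _ hx⟩
  have e : path c s b = fun m => supp K ![m, 1] ^ a * supp L ![m, 1] ^ b := by
    rw [hpath, show 1 - b = a by linarith]
  rw [← e, hA b hbI]
  refine ⟨?_, ENNReal.ofReal_ne_top⟩
  set A0 := area S hS (path c s 0) R
  set A1 := area S hS (path c s 1) R
  have hKv : volume K ≤ ENNReal.ofReal A0 :=
    (measure_mono hKs).trans_eq (hA 0 ⟨le_rfl, zero_le_one⟩)
  have hLv : volume L ≤ ENNReal.ofReal A1 :=
    (measure_mono hLs).trans_eq (hA 1 ⟨zero_le_one, le_rfl⟩)
  have hA0 : 0 < A0 := ENNReal.ofReal_pos.1 (hK.volume_pos.trans_le hKv)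
  have hA1 : 0 < A1 := ENNReal.ofReal_pos.1 (hL.volume_pos.trans_le hLv)
  refine (mul_le_mul' (ENNReal.rpow_le_rpow hKv ha.le) (ENNReal.rpow_le_rpow hLv hb.le)).trans ?_
  rw [ENNReal.ofReal_rpow_of_pos hA0, ENNReal.ofReal_rpow_of_pos hA1,
    ← ENNReal.ofReal_mul (Real.rpow_nonneg hA0.le _)]
  refine ENNReal.ofReal_le_ofReal ?_
  rw [← Real.exp_log hpos, Real.rpow_def_of_pos hA0, Real.rpow_def_of_pos hA1, ← Real.exp_add]
  refine Real.exp_le_exp.2 ?_
  rw [show a = 1 - b by linarith, mul_comm (Real.log A0), mul_comm (Real.log A1)]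
  exact hmain

/-- The planar logarithmic Brunn-Minkowski inequality. -/
theorem planar {K L : Set (Fin 2 → ℝ)} (hK : Body K) (hL : Body L) {a b : ℝ} (ha : 0 < a)
    (hb : 0 < b) (hab : a + b = 1) :
    volume K ^ a * volume L ^ b ≤ volume (logComb K L a b) := by
  obtain ⟨e, he⟩ := exists_surjective_nat ℚ
  set S : ℕ → Finset ℝ := fun n => {0, 1} ∪ (Finset.range n).image fun i => (e i : ℝ) with hS
  set F : (Fin 2 → ℝ) → ℝ := fun u => supp K u ^ a * supp L u ^ b with hF
  have hFc : Continuous F :=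
    (hK.continuous_supp.rpow_const fun _ => Or.inr ha.le).mul
      (hL.continuous_supp.rpow_const fun _ => Or.inr hb.le)
  set f : ℝ → ℝ := fun m => F ![m, 1]
  set W : ℕ → Set (Fin 2 → ℝ) := fun n => strips (S n) f with hW
  have hanti : Antitone W := fun i j hij x hx m hm => hx m (by
    refine Finset.union_subset_union_right (Finset.image_subset_image ?_) hm
    exact Finset.range_subset_range.2 hij)
  have hsub : ⋂ n, W n ⊆ logComb K L a b := by
    intro x hx
    rw [Set.mem_iInter] at hx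
    have hrat : ∀ r : ℚ, |dot ![(r : ℝ), 1] x| ≤ f r := by
      intro r
      obtain ⟨i, rfl⟩ := he r
      exact hx (i + 1) _ (Finset.mem_union_right _
        (Finset.mem_image.2 ⟨i, Finset.mem_range.2 (Nat.lt_succ_self i), rfl⟩))
    have hreal : ∀ m : ℝ, |dot ![m, 1] x| ≤ f m := by
      intro m
      refine Rat.denseRange_cast.induction_on m (isClosed_le ?_ ?_) hrat
      · simp only [dot_vec]; fun_prop
      · exact hFc.comp (by fun_prop)
    have hne : ∀ u : Fin 2 → ℝ, u 1 ≠ 0 → dot u x ≤ F u := by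
      intro u hu
      have hsmul : u = u 1 • ![u 0 / u 1, 1] := by
        ext i; fin_cases i <;> simp [mul_div_cancel₀ _ hu]
      have hb2 := hreal (u 0 / u 1)
      have hFu : F u = |u 1| * f (u 0 / u 1) := by
        have key : ∀ c : ℝ, ∀ M : Set (Fin 2 → ℝ), Body M → ∀ v, supp M (c • v) = |c| * supp M v := by
          intro c M hM v
          rcases le_total 0 c with hc | hc
          · rw [abs_of_nonneg hc, hM.supp_smul hc]
          · rw [abs_of_nonpos hc, ← hM.supp_neg, ← neg_smul, hM.supp_smul (neg_nonneg.2 hc)]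
        conv_lhs => rw [hsmul]
        simp only [hF, f, key _ K hK, key _ L hL]
        rw [Real.mul_rpow (abs_nonneg _) (hK.supp_nonneg _),
          Real.mul_rpow (abs_nonneg _) (hL.supp_nonneg _)]
        calc |u 1| ^ a * supp K ![u 0 / u 1, 1] ^ a * (|u 1| ^ b * supp L ![u 0 / u 1, 1] ^ b)
            = (|u 1| ^ a * |u 1| ^ b)
                * (supp K ![u 0 / u 1, 1] ^ a * supp L ![u 0 / u 1, 1] ^ b) := by ring
          _ = _ := by rw [← Real.rpow_add (abs_pos.2 hu), hab, Real.rpow_one]
      rw [hFu]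
      calc dot u x = u 1 * dot ![u 0 / u 1, 1] x := by
            conv_lhs => rw [hsmul]
            rw [dot_smul_left]
        _ ≤ |u 1| * |dot ![u 0 / u 1, 1] x| := by rw [← abs_mul]; exact le_abs_self _
        _ ≤ _ := mul_le_mul_of_nonneg_left hb2 (abs_nonneg _)
    intro u
    by_cases hu : u 1 = 0
    swap
    · exact hne u hu
    have hlim : Tendsto (fun k : ℕ => Function.update u 1 (1 / ((k : ℝ) + 1))) atTop (𝓝 u) := by
      have hc : Continuous fun t : ℝ => Function.update u 1 t :=
        continuous_const.update 1 continuous_id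
      have := (hc.tendsto 0).comp (tendsto_one_div_add_atTop_nhds_zero_nat (𝕜 := ℝ))
      have hupd : Function.update u 1 (0 : ℝ) = u := by rw [← hu, Function.update_eq_self]
      simpa [Function.comp_def, hupd] using this
    refine le_of_tendsto_of_tendsto
      (((continuous_dot.comp (continuous_id.prodMk continuous_const)).tendsto u).comp hlim)
      ((hFc.tendsto u).comp hlim) (Eventually.of_forall fun k => ?_)
    refine hne _ ?_
    simp only [id_eq, Function.update_self]
    positivity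
  have hfin : ∀ n, volume K ^ a * volume L ^ b ≤ volume (W n) ∧ volume (W n) ≠ ⊤ := fun n =>
    finite_step hK hL (by simp [hS]) (by simp [hS]) ha hb hab
  have hlim := tendsto_measure_iInter_atTop (μ := volume)
    (fun n => (isClosed_strips (S n) f).measurableSet.nullMeasurableSet) hanti ⟨0, (hfin 0).2⟩
  exact (ge_of_tendsto hlim (Eventually.of_forall fun n => (hfin n).1)).trans (measure_mono hsub)

end Vale.Agent.P227
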