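import Mathlib

/-!
P227: the area of a symmetric polygon as a quadratic form in its support numbers, written for
edges that are graphs with slopes `m 0 < m 1 < ... < m N`, and its local log-concavity.
-/

namespace Vale.Agent.P227

open Finset

/-- Bilinear area form. -/
noncomputable def bil (N : ℕ) (m u v : ℕ → ℝ) : ℝ :=
  (u 0 + u N) * (v 0 + v N) / (m N - m 0)
    - ∑ j ∈ range N, (u (j + 1) - u j) * (v (j + 1) - v j) / (m (j + 1) - m j)

/-- Horizontal coordinates of the vertices. -/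
noncomputable def vtx (N : ℕ) (m w : ℕ → ℝ) (j : ℕ) : ℝ :=
  if j = 0 then -((w 0 + w N) / (m N - m 0))
  else if j ≤ N then (w j - w (j - 1)) / (m j - m (j - 1))
  else (w 0 + w N) / (m N - m 0)

lemma vtx_succ {N : ℕ} (m w : ℕ → ℝ) {j : ℕ} (hj : j < N) :
    vtx N m w (j + 1) = (w (j + 1) - w j) / (m (j + 1) - m j) := by
  rw [vtx, if_neg (by omega), if_pos (by omega), Nat.add_sub_cancel]

lemma vtx_last (N : ℕ) (m w : ℕ → ℝ) :
    vtx N m w (N + 1) = (w 0 + w N) / (m N - m 0) := by
  rw [vtx, if_neg (by omega), if_neg (by omega)]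

lemma vtx_zero (N : ℕ) (m w : ℕ → ℝ) : vtx N m w 0 = -((w 0 + w N) / (m N - m 0)) := by
  rw [vtx, if_pos rfl]

lemma bil_comm (N : ℕ) (m u v : ℕ → ℝ) : bil N m u v = bil N m v u := by
  simp only [bil]
  rw [mul_comm (u 0 + u N)]
  congr 1
  exact sum_congr rfl fun j _ => by rw [mul_comm]

/-- Summation by parts. -/
lemma bil_eq_sum (N : ℕ) (m w v : ℕ → ℝ) :
    bil N m w v = ∑ j ∈ range (N + 1), v j * (vtx N m w (j + 1) - vtx N m w j) := by
  have key : ∀ (p : ℕ → ℝ) (n : ℕ), ∑ j ∈ range (n + 1), v j * (p (j + 1) - p j)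
      = v n * p (n + 1) - v 0 * p 0 - ∑ j ∈ range n, p (j + 1) * (v (j + 1) - v j) := by
    intro p n
    induction n with
    | zero => simp; ring
    | succ n ih => rw [sum_range_succ, ih, sum_range_succ _ n]; ring
  rw [key, vtx_last, vtx_zero, bil]
  have h : ∑ j ∈ range N, vtx N m w (j + 1) * (v (j + 1) - v j)
      = ∑ j ∈ range N, (w (j + 1) - w j) * (v (j + 1) - v j) / (m (j + 1) - m j) :=
    sum_congr rfl fun j hj => by rw [vtx_succ m w (mem_range.1 hj)]; ring
  rw [h]
  ring

lemma sq_sum_div_le (d x : ℕ → ℝ) : ∀ n : ℕ, (∀ j < n, 0 < d j) →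
    (∑ j ∈ range n, x j) ^ 2 ≤ (∑ j ∈ range n, d j) * ∑ j ∈ range n, x j ^ 2 / d j := by
  intro n hd
  induction n with
  | zero => simp
  | succ n ih =>
    have h0 := hd n (Nat.lt_succ_self n)
    have ih' := ih fun j hj => hd j (by omega)
    rw [sum_range_succ, sum_range_succ, sum_range_succ]
    set A := ∑ j ∈ range n, x j
    set D := ∑ j ∈ range n, d j
    set E := ∑ j ∈ range n, x j ^ 2 / d j
    have hD : 0 ≤ D := sum_nonneg fun j hj => (hd j (by have := mem_range.1 hj; omega)).le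
    have hE : 0 ≤ E :=
      sum_nonneg fun j hj => div_nonneg (sq_nonneg _) (hd j (by have := mem_range.1 hj; omega)).le
    set r := x n / d n with hr
    have hx : x n = r * d n := by rw [hr, div_mul_cancel₀ _ h0.ne']
    have hq : x n ^ 2 / d n = r ^ 2 * d n := by rw [hx]; field_simp
    rw [hq, hx]
    have h2 : 2 * A * r ≤ D * r ^ 2 + E := by
      have hsq : (2 * A * r) ^ 2 ≤ (D * r ^ 2 + E) ^ 2 := by
        nlinarith [sq_nonneg (D * r ^ 2 - E), mul_le_mul_of_nonneg_right ih' (sq_nonneg r)]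
      exact le_trans (le_abs_self _) (abs_le_of_sq_le_sq hsq (by positivity))
    nlinarith [mul_le_mul_of_nonneg_right h2 h0.le]

/-- The area form is nonpositive on displacements fixing one pair of edges. -/
lemma bil_self_nonpos {N : ℕ} {m : ℕ → ℝ} (hm : ∀ j < N, m j < m (j + 1)) (v : ℕ → ℝ) {k : ℕ}
    (hk : k ≤ N) (hv : v k = 0) : bil N m v v ≤ 0 := by
  set x : ℕ → ℝ := fun j => if j < k then -(v (j + 1) - v j) else v (j + 1) - v j with hx
  have htel : ∀ n, n ≤ k → ∑ j ∈ range n, x j = v 0 - v n := by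
    intro n hn
    induction n with
    | zero => simp
    | succ n ih =>
      rw [sum_range_succ, ih (by omega)]
      simp only [hx, if_pos (show n < k by omega)]
      ring
  have htel2 : ∀ n, k ≤ n → ∑ j ∈ range n, x j = v 0 + v n := by
    intro n hn
    induction n, hn using Nat.le_induction with
    | base => rw [htel k le_rfl, hv]; ring
    | succ n hn ih =>
      rw [sum_range_succ, ih]
      simp only [hx, if_neg (show ¬ n < k by omega)]
      ring
  have hd : ∑ j ∈ range N, (m (j + 1) - m j) = m N - m 0 := sum_range_sub m N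
  have hcs := sq_sum_div_le (fun j => m (j + 1) - m j) x N fun j hj => sub_pos.2 (hm j hj)
  rw [htel2 N hk, hd] at hcs
  have hsq : ∀ j ∈ range N, x j ^ 2 / (m (j + 1) - m j)
      = (v (j + 1) - v j) * (v (j + 1) - v j) / (m (j + 1) - m j) := by
    intro j _
    simp only [hx]
    split_ifs <;> ring
  rw [sum_congr rfl hsq] at hcs
  rw [bil, sub_nonpos]
  rcases Nat.eq_zero_or_pos N with rfl | hN
  · simp
  · have hW : 0 < m N - m 0 := by
      rw [← hd]
      exact sum_pos (fun j hj => sub_pos.2 (hm j (mem_range.1 hj))) ⟨0, mem_range.2 hN⟩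
    rw [div_le_iff₀ hW]
    linarith [hcs, sq (v 0 + v N)]

lemma bil_linear (N : ℕ) (m u v : ℕ → ℝ) (c : ℝ) :
    bil N m (fun j => u j - c * v j) (fun j => u j - c * v j)
      = bil N m u u - 2 * c * bil N m v u + c ^ 2 * bil N m v v := by
  simp only [bil, mul_sub, Finset.mul_sum]
  rw [show ∀ a b c d e f : ℝ, a - b - (c - d) + (e - f) = (a - c + e) - (b - d + f) from
      fun a b c d e f => by ring, ← sum_sub_distrib, ← sum_add_distrib]
  congr 1
  · ring
  · exact sum_congr rfl fun j _ => by ring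

/-- The local log-concavity inequality. -/
lemma local_ineq {N : ℕ} {m w s : ℕ → ℝ} (hm : ∀ j < N, m j < m (j + 1))
    (hw : ∀ j ≤ N, 0 < w j) (hp : ∀ j ≤ N, vtx N m w j < vtx N m w (j + 1)) :
    (bil N m (fun j => s j * w j) (fun j => s j * w j)
        + bil N m w (fun j => s j ^ 2 * w j)) * bil N m w w
      ≤ 2 * bil N m w (fun j => s j * w j) ^ 2 := by
  set v : ℕ → ℝ := fun j => s j * w j with hv
  set Q := bil N m v v
  set B := bil N m w v with hB
  set g := bil N m w w with hg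
  set ω : ℕ → ℝ := fun j => w j * (vtx N m w (j + 1) - vtx N m w j) with hω
  have h1 : ∑ j ∈ range (N + 1), ω j = g := by rw [hg, bil_eq_sum]
  have h2 : ∑ j ∈ range (N + 1), ω j * s j = B := by
    rw [hB, bil_eq_sum]
    exact sum_congr rfl fun j _ => by simp only [hω, hv]; ring
  have h3 : ∑ j ∈ range (N + 1), ω j * s j ^ 2 = bil N m w (fun j => s j ^ 2 * w j) := by
    rw [bil_eq_sum]
    exact sum_congr rfl fun j _ => by simp only [hω]; ring
  have h4 : ∀ j ∈ range (N + 1), ω j * Q - 2 * B * (ω j * s j) + g * (ω j * s j ^ 2) ≤ 0 := by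
    intro j hj
    have hjN : j ≤ N := Nat.lt_succ_iff.1 (mem_range.1 hj)
    have h := bil_self_nonpos hm (fun i => v i - s j * w i) hjN (by simp [hv])
    rw [bil_linear] at h
    have hω0 : 0 ≤ ω j := mul_nonneg (hw j hjN).le (sub_nonneg.2 (hp j hjN).le)
    calc ω j * Q - 2 * B * (ω j * s j) + g * (ω j * s j ^ 2)
        = ω j * (Q - 2 * s j * B + s j ^ 2 * g) := by ring
      _ ≤ 0 := mul_nonpos_of_nonneg_of_nonpos hω0 h
  have h5 := sum_nonpos h4
  rw [sum_add_distrib, sum_sub_distrib, ← sum_mul, ← mul_sum, ← mul_sum, h1, h2, h3] at h5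
  linarith [h5, sq B]

lemma hasDerivAt_bil (N : ℕ) (m : ℕ → ℝ) {u v : ℝ → ℕ → ℝ} {u' v' : ℕ → ℝ} {t : ℝ}
    (hu : ∀ j, HasDerivAt (fun r => u r j) (u' j) t)
    (hv : ∀ j, HasDerivAt (fun r => v r j) (v' j) t) :
    HasDerivAt (fun r => bil N m (u r) (v r)) (bil N m u' (v t) + bil N m (u t) v') t := by
  have h := ((((hu 0).add (hu N)).mul ((hv 0).add (hv N))).div_const (m N - m 0)).sub
    (HasDerivAt.fun_sum fun j (_ : j ∈ range N) =>
      (((hu (j + 1)).sub (hu j)).mul ((hv (j + 1)).sub (hv j))).div_const (m (j + 1) - m j))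
  refine h.congr_deriv ?_
  simp only [bil, add_div, sum_add_distrib, Pi.add_apply, Pi.sub_apply]
  ring

/-- Local concavity of the logarithm of the area form along geometric paths. -/
theorem concaveOn_log_bil {N : ℕ} {m c s : ℕ → ℝ} {D : Set ℝ} (hD : Convex ℝ D)
    (hm : ∀ j < N, m j < m (j + 1))
    (hp : ∀ t ∈ D, ∀ j ≤ N, vtx N m (fun i => Real.exp (c i + s i * t)) j
      < vtx N m (fun i => Real.exp (c i + s i * t)) (j + 1)) :
    ConcaveOn ℝ D fun t => Real.log
      (bil N m (fun i => Real.exp (c i + s i * t)) (fun i => Real.exp (c i + s i * t))) := by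
  set w : ℝ → ℕ → ℝ := fun t i => Real.exp (c i + s i * t) with hw
  have hd1 : ∀ (i : ℕ) (t : ℝ), HasDerivAt (fun r => w r i) (s i * w t i) t := by
    intro i t
    have h := (((hasDerivAt_id' t).const_mul (s i)).const_add (c i)).exp
    simpa [hw, mul_comm] using h
  have hd2 : ∀ (i : ℕ) (t : ℝ), HasDerivAt (fun r => s i * w r i) (s i ^ 2 * w t i) t := by
    intro i t
    simpa [pow_two, mul_assoc] using (hd1 i t).const_mul (s i)
  set g : ℝ → ℝ := fun t => bil N m (w t) (w t) with hg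
  set g1 : ℝ → ℝ := fun t => 2 * bil N m (w t) (fun i => s i * w t i) with hg1
  set g2 : ℝ → ℝ := fun t => 2 * (bil N m (fun i => s i * w t i) (fun i => s i * w t i)
    + bil N m (w t) (fun i => s i ^ 2 * w t i)) with hg2
  have hpos : ∀ t ∈ D, 0 < g t := by
    intro t ht
    simp only [hg]
    rw [bil_eq_sum]
    exact sum_pos (fun j hj => mul_pos (Real.exp_pos _)
      (sub_pos.2 (hp t ht j (Nat.lt_succ_iff.1 (mem_range.1 hj))))) ⟨0, mem_range.2 (by omega)⟩
  have e1 : ∀ t, HasDerivAt g (g1 t) t := by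
    intro t
    refine (hasDerivAt_bil N m (fun j => hd1 j t) (fun j => hd1 j t)).congr_deriv ?_
    simp only [hg1]
    rw [bil_comm N m (fun i => s i * w t i) (w t)]
    ring
  have e2 : ∀ t, HasDerivAt g1 (g2 t) t := fun t =>
    (hasDerivAt_bil N m (fun j => hd1 j t) (fun j => hd2 j t)).const_mul 2
  have el : ∀ t ∈ D, HasDerivAt (fun r => Real.log (g r)) (g1 t / g t) t := fun t ht =>
    (e1 t).log (hpos t ht).ne'
  refine concaveOn_of_hasDerivWithinAt2_nonpos hD
    (fun t ht => ((el t ht).continuousAt).continuousWithinAt)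
    (f' := fun t => g1 t / g t) (f'' := fun t => (g2 t * g t - g1 t * g1 t) / g t ^ 2)
    (fun t ht => (el t (interior_subset ht)).hasDerivWithinAt)
    (fun t ht => ((e2 t).div (e1 t) (hpos t (interior_subset ht)).ne').hasDerivWithinAt)
    fun t ht => ?_
  have ht' := interior_subset ht
  refine div_nonpos_of_nonpos_of_nonneg ?_ (sq_nonneg _)
  have := local_ineq (w := w t) (s := s) hm (fun j _ => Real.exp_pos _) (hp t ht')
  simp only [hg, hg1, hg2]
  linarith

end Vale.Agent.P227
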