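import Vale.Agent.P227.Planar
import Vale.Agent.P227.Mult
import Vale.Agent.P254.Sym.PL

/-!
P227: adding one reflection preserves the logarithmic Brunn-Minkowski inequality.
-/

namespace Vale.Agent.P227

open MeasureTheory Set Function
open scoped ENNReal

variable {n : ℕ}

/-- Invariance under the first `k` coordinate reflections. -/
def Refl (k : ℕ) (K : Set (Fin n → ℝ)) : Prop :=
  ∀ i : Fin n, (i : ℕ) < k → ∀ x ∈ K, update x i (-x i) ∈ K

/-- The section at height `t` of the zeroth coordinate. -/
def fib (K : Set (Fin (n + 1) → ℝ)) (t : ℝ) : Set (Fin n → ℝ) := {y | Fin.cons t y ∈ K}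

lemma continuous_cons (t : ℝ) : Continuous fun y : Fin n → ℝ => (Fin.cons t y : Fin (n + 1) → ℝ) :=
  continuous_pi fun i => Fin.cases (by simpa using continuous_const)
    (fun j => by simpa using continuous_apply j) i

lemma dot_cons (u : Fin (n + 1) → ℝ) (t : ℝ) (y : Fin n → ℝ) :
    dot u (Fin.cons t y) = u 0 * t + dot (Fin.tail u) y := by
  simp [dot, Fin.sum_univ_succ, Fin.tail]

lemma fib_neg {K : Set (Fin (n + 1) → ℝ)}
    (h : ∀ x ∈ K, update x 0 (-x 0) ∈ K) (t : ℝ) : fib K (-t) = fib K t := by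
  ext y
  constructor <;> intro hy
  · have := h _ hy
    simpa [fib, Fin.update_cons_zero] using this
  · have := h _ hy
    simpa [fib, Fin.update_cons_zero] using this

lemma measurable_fib_volume {K : Set (Fin (n + 1) → ℝ)} (hK : MeasurableSet K) :
    Measurable fun t => volume (fib K t) :=
  measurable_measure_prodMk_left (ν := (volume : Measure (Fin n → ℝ)))
    (P254.Sym.measurable_cons n hK)

lemma volume_eq_two_mul {K : Set (Fin (n + 1) → ℝ)} (hK : MeasurableSet K)
    (h : ∀ x ∈ K, update x 0 (-x 0) ∈ K) :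
    volume K = 2 * ∫⁻ t in Ioi (0 : ℝ), volume (fib K t) := by
  have h1 : volume K = ∫⁻ t, volume (fib K t) := by
    rw [← lintegral_indicator_one hK, volume_pi,
      P254.Sym.lintegral_pi_cons _ (measurable_one.indicator hK)]
    refine lintegral_congr fun t => ?_
    rw [← volume_pi, ← lintegral_indicator_one
      (show MeasurableSet (fib K t) from (continuous_cons t).measurable hK)]
    refine lintegral_congr fun y => ?_
    by_cases hy : Fin.cons t y ∈ K
    · rw [indicator_of_mem hy, indicator_of_mem (show y ∈ fib K t from hy)]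
      rfl
    · rw [indicator_of_notMem hy, indicator_of_notMem (show y ∉ fib K t from hy)]
  rw [h1, ← lintegral_add_compl _ (measurableSet_Ioi (a := (0 : ℝ))), compl_Ioi, two_mul]
  congr 1
  have hp := (Measure.measurePreserving_neg (volume : Measure ℝ)).setLIntegral_comp_preimage
    (measurableSet_Iio (a := (0 : ℝ))) (measurable_fib_volume hK)
  rw [setLIntegral_congr Iio_ae_eq_Iic.symm, ← hp]
  simp [fib_neg h]

lemma update_dot (u x : Fin n → ℝ) (i : Fin n) :
    dot (update u i (-u i)) x = dot u (update x i (-x i)) := by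
  refine Finset.sum_congr rfl fun j _ => ?_
  rcases eq_or_ne j i with rfl | h
  · simp
  · simp [h]

lemma supp_flip {K : Set (Fin n → ℝ)} {i : Fin n} (h : ∀ x ∈ K, update x i (-x i) ∈ K)
    (u : Fin n → ℝ) : supp K (update u i (-u i)) = supp K u := by
  refine congrArg sSup ?_
  ext z
  constructor
  · rintro ⟨x, hx, rfl⟩
    exact ⟨_, h x hx, (update_dot u x i).symm⟩
  · rintro ⟨x, hx, rfl⟩
    exact ⟨_, h x hx, by rw [update_dot]; simp⟩

lemma logComb_flip {K L : Set (Fin n → ℝ)} {i : Fin n} (hK : ∀ x ∈ K, update x i (-x i) ∈ K)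
    (hL : ∀ x ∈ L, update x i (-x i) ∈ L) (a b : ℝ) :
    ∀ x ∈ logComb K L a b, update x i (-x i) ∈ logComb K L a b := by
  intro x hx u
  have h := hx (update u i (-u i))
  rwa [update_dot, supp_flip hK, supp_flip hL] at h

lemma body_fib {K : Set (Fin (n + 1) → ℝ)} (hK : Body K)
    (h : ∀ x ∈ K, update x 0 (-x 0) ∈ K) {t : ℝ} (hv : volume (fib K t) ≠ 0) :
    Body (fib K t) := by
  have hclosed : IsClosed (fib K t) := hK.compact.isClosed.preimage (continuous_cons t)
  have hcomp : IsCompact (fib K t) :=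
    (hK.compact.image (continuous_pi fun i : Fin n => continuous_apply i.succ)).of_isClosed_subset
      hclosed fun y hy => ⟨_, hy, by funext i; simp⟩
  have hconv : Convex ℝ (fib K t) := by
    intro y hy z hz p q hp hq hpq
    have := hK.convex hy hz hp hq hpq
    have e : p • (Fin.cons t y : Fin (n + 1) → ℝ) + q • Fin.cons t z
        = Fin.cons t (p • y + q • z) := by
      funext i
      refine Fin.cases ?_ (fun j => ?_) i
      · simp [← add_mul, hpq]
      · simp
    rwa [e] at this
  refine ⟨hcomp, hconv, fun y hy => ?_, ?_⟩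
  · have := h _ (hK.sym _ hy)
    have e : update (-(Fin.cons t y : Fin (n + 1) → ℝ)) 0
        (-(-(Fin.cons t y : Fin (n + 1) → ℝ)) 0) = Fin.cons t (-y) := by
      funext i
      refine Fin.cases ?_ (fun j => ?_) i
      · simp
      · simp [Fin.succ_ne_zero]
    rwa [e] at this
  · by_contra hempty
    rw [not_nonempty_iff_eq_empty] at hempty
    have h0 := hconv.addHaar_frontier (volume : Measure (Fin n → ℝ))
    rw [frontier, hempty, sdiff_empty, hclosed.closure_eq] at h0
    exact hv h0

lemma refl_fib {k : ℕ} {K : Set (Fin (n + 1) → ℝ)} (h : Refl (k + 1) K) (t : ℝ) :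
    Refl k (fib K t) := by
  intro j hj y hy
  have := h j.succ (by simpa using hj) _ hy
  simpa [fib, ← Fin.cons_update] using this

/-- One reflection more. -/
lemma step {k : ℕ} {a b : ℝ} (ha : 0 < a) (hb : 0 < b) (hab : a + b = 1)
    (ih : ∀ K L : Set (Fin n → ℝ), Body K → Body L → Refl k K → Refl k L →
      volume K ^ a * volume L ^ b ≤ volume (logComb K L a b))
    {K L : Set (Fin (n + 1) → ℝ)} (hK : Body K) (hL : Body L) (hKr : Refl (k + 1) K)
    (hLr : Refl (k + 1) L) :
    volume K ^ a * volume L ^ b ≤ volume (logComb K L a b) := by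
  have hK0 := hKr 0 (Nat.succ_pos k)
  have hL0 := hLr 0 (Nat.succ_pos k)
  have hKm := hK.compact.isClosed.measurableSet
  have hLm := hL.compact.isClosed.measurableSet
  have hMm := (isClosed_logComb K L a b).measurableSet
  rw [volume_eq_two_mul hKm hK0, volume_eq_two_mul hLm hL0,
    volume_eq_two_mul hMm (logComb_flip hK0 hL0 a b), ENNReal.mul_rpow_of_nonneg _ _ ha.le,
    ENNReal.mul_rpow_of_nonneg _ _ hb.le, mul_mul_mul_comm,
    ← ENNReal.rpow_add a b (by norm_num) (by norm_num), hab, ENNReal.rpow_one]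
  refine mul_le_mul' le_rfl (pl_geom ha hb hab (measurable_fib_volume hKm)
    (measurable_fib_volume hLm) (measurable_fib_volume hMm) fun s r hs hr => ?_)
  rcases eq_or_ne (volume (fib K s)) 0 with h1 | h1
  · simp [h1, ENNReal.zero_rpow_of_pos ha]
  rcases eq_or_ne (volume (fib L r)) 0 with h2 | h2
  · simp [h2, ENNReal.zero_rpow_of_pos hb]
  have hKs := body_fib hK hK0 h1
  have hLs := body_fib hL hL0 h2
  refine (ih _ _ hKs hLs (refl_fib hKr s) (refl_fib hLr r)).trans (measure_mono ?_)
  intro y hy u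
  have hsup : ∀ (M : Set (Fin (n + 1) → ℝ)), Body M → (∀ x ∈ M, update x 0 (-x 0) ∈ M) →
      ∀ q, Body (fib M q) → |u 0| * q + supp (fib M q) (Fin.tail u) ≤ supp M u := by
    intro M hM hM0 q hq
    obtain ⟨z, hz, he⟩ := hq.exists_supp (Fin.tail u)
    rcases le_total 0 (u 0) with h | h
    · rw [abs_of_nonneg h, ← he, ← dot_cons]
      exact hM.le_supp u hz
    · have hz' : z ∈ fib M (-q) := by rwa [fib_neg hM0]
      rw [abs_of_nonpos h, ← he, neg_mul, ← mul_neg, ← dot_cons]
      exact hM.le_supp u hz'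
  have hsr : 0 ≤ s ^ a * r ^ b := by positivity
  calc dot u (Fin.cons (s ^ a * r ^ b) y)
      = u 0 * (s ^ a * r ^ b) + dot (Fin.tail u) y := dot_cons _ _ _
    _ ≤ |u 0| * (s ^ a * r ^ b)
        + supp (fib K s) (Fin.tail u) ^ a * supp (fib L r) (Fin.tail u) ^ b :=
      add_le_add (mul_le_mul_of_nonneg_right (le_abs_self _) hsr) (hy (Fin.tail u))
    _ = (|u 0| * s) ^ a * (|u 0| * r) ^ b
        + supp (fib K s) (Fin.tail u) ^ a * supp (fib L r) (Fin.tail u) ^ b := by
      congr 1
      rw [Real.mul_rpow (abs_nonneg _) hs.le, Real.mul_rpow (abs_nonneg _) hr.le,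
        mul_mul_mul_comm, ← Real.rpow_add' (abs_nonneg _) (by rw [hab]; exact one_ne_zero), hab,
        Real.rpow_one]
    _ ≤ (|u 0| * s + supp (fib K s) (Fin.tail u)) ^ a
        * (|u 0| * r + supp (fib L r) (Fin.tail u)) ^ b :=
      geom_add_le ha hb hab (by positivity) (by positivity) (hKs.supp_nonneg _) (hLs.supp_nonneg _)
    _ ≤ supp K u ^ a * supp L u ^ b := by
      have h3 := hKs.supp_nonneg (Fin.tail u)
      have h4 := hLs.supp_nonneg (Fin.tail u)
      exact mul_le_mul (Real.rpow_le_rpow (by positivity) (hsup K hK hK0 s hKs) ha.le)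
        (Real.rpow_le_rpow (by positivity) (hsup L hL hL0 r hLs) hb.le) (by positivity)
        (Real.rpow_nonneg (hK.supp_nonneg _) _)

/-- All but two reflections. -/
theorem lbm_refl {a b : ℝ} (ha : 0 < a) (hb : 0 < b) (hab : a + b = 1) :
    ∀ (k : ℕ) (K L : Set (Fin (k + 2) → ℝ)), Body K → Body L → Refl k K → Refl k L →
      volume K ^ a * volume L ^ b ≤ volume (logComb K L a b) := by
  intro k
  induction k with
  | zero => exact fun K L hK hL _ _ => planar hK hL ha hb hab
  | succ k ih => exact fun K L hK hL hKr hLr => step ha hb hab ih hK hL hKr hLr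

end Vale.Agent.P227
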