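import Vale.Agent.P227.Quad

/-!
P227: symmetric strips in the plane given by finitely many slopes.  Their area is the quadratic
form of `Quad` on the active slopes, and it is log-concave along geometric paths.
-/

namespace Vale.Agent.P227

open Finset MeasureTheory

/-- The least of the lines `x ↦ f m - m x`. -/
noncomputable def env (S : Finset ℝ) (hS : S.Nonempty) (f : ℝ → ℝ) (x : ℝ) : ℝ :=
  S.inf' hS fun m => f m - m * x

/-- The height of the vertical section of the strip intersection. -/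
noncomputable def hgt (S : Finset ℝ) (hS : S.Nonempty) (f : ℝ → ℝ) (x : ℝ) : ℝ :=
  env S hS f x + env S hS f (-x)

/-- The area, computed in a window. -/
noncomputable def area (S : Finset ℝ) (hS : S.Nonempty) (f : ℝ → ℝ) (R : ℝ) : ℝ :=
  ∫ x in -R..R, max (hgt S hS f x) 0

variable {S T : Finset ℝ} {hS : S.Nonempty} {hT : T.Nonempty} {f : ℝ → ℝ}

lemma env_le {m : ℝ} (hm : m ∈ S) (x : ℝ) : env S hS f x ≤ f m - m * x :=
  Finset.inf'_le _ hm

lemma continuous_env : Continuous (env S hS f) :=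
  Continuous.finset_inf'_apply hS fun m _ => by fun_prop

lemma continuous_hgt : Continuous (hgt S hS f) := by
  unfold hgt
  exact continuous_env.add (continuous_env.comp continuous_neg)

lemma hgt_neg (x : ℝ) : hgt S hS f (-x) = hgt S hS f x := by
  rw [hgt, hgt, neg_neg, add_comm]

lemma hgt_zero_pos (hf : ∀ m ∈ S, 0 < f m) : 0 < hgt S hS f 0 := by
  have h : 0 < env S hS f 0 := by
    rw [env, Finset.lt_inf'_iff]
    intro m hm
    simpa using hf m hm
  simp only [hgt, neg_zero]
  linarith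

/-- Two slopes bound the strip intersection. -/
lemma hgt_nonpos_of_far {a b x : ℝ} (ha : a ∈ S) (hb : b ∈ S) (_hab : a < b)
    (hx : f a + f b ≤ (b - a) * |x|) : hgt S hS f x ≤ 0 := by
  wlog h : 0 ≤ x generalizing x with H
  · rw [← hgt_neg]
    exact H (by rwa [abs_neg]) (by linarith [not_le.1 h])
  rw [abs_of_nonneg h] at hx
  have h1 := env_le (hS := hS) (f := f) hb x
  have h2 := env_le (hS := hS) (f := f) ha (-x)
  rw [hgt]
  linarith

lemma hgt_nonneg {X x : ℝ} (hX : hgt S hS f X = 0) (h : |x| ≤ X) : 0 ≤ hgt S hS f x := by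
  obtain ⟨h1, h2⟩ := abs_le.1 h
  obtain ⟨i, hi, hi'⟩ := S.exists_mem_eq_inf' hS fun m => f m - m * x
  obtain ⟨k, hk, hk'⟩ := S.exists_mem_eq_inf' hS fun m => f m - m * (-x)
  have e1 := env_le (hS := hS) (f := f) hi X
  have e2 := env_le (hS := hS) (f := f) hk (-X)
  have e3 := env_le (hS := hS) (f := f) hi (-X)
  have e4 := env_le (hS := hS) (f := f) hk X
  rw [hgt] at hX
  rw [hgt, env, env, hi', hk']
  rcases le_total 0 (k - i) with h0 | h0
  · nlinarith [mul_nonneg h0 (show 0 ≤ X + x by linarith)]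
  · nlinarith [mul_nonneg (neg_nonneg.2 h0) (show 0 ≤ X - x by linarith)]

section poly

variable {N : ℕ} {m : ℕ → ℝ}

/-- Conditions on an active list. -/
structure Active (N : ℕ) (m : ℕ → ℝ) (f : ℝ → ℝ) : Prop where
  pos : 1 ≤ N
  mono : ∀ j < N, m j < m (j + 1)
  inc : ∀ j ≤ N, vtx N m (fun i => f (m i)) j < vtx N m (fun i => f (m i)) (j + 1)

/-- The slopes of an active list. -/
noncomputable def slopes (N : ℕ) (m : ℕ → ℝ) : Finset ℝ := (range (N + 1)).image m

lemma slopes_nonempty (N : ℕ) (m : ℕ → ℝ) : (slopes N m).Nonempty :=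
  (nonempty_range_iff.2 (by omega)).image m

lemma Active.vtx_le (h : Active N m f) : ∀ {i j : ℕ}, i ≤ j → j ≤ N + 1 →
    vtx N m (fun i => f (m i)) i ≤ vtx N m (fun i => f (m i)) j := by
  intro i j hij
  induction j, hij using Nat.le_induction with
  | base => intro _; exact le_rfl
  | succ n _ ih => intro hn; exact (ih (by omega)).trans (h.inc n (by omega)).le

lemma Active.slope_lt (h : Active N m f) : m 0 < m N := by
  have hd : ∑ j ∈ range N, (m (j + 1) - m j) = m N - m 0 := sum_range_sub m N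
  have hp : 0 < ∑ j ∈ range N, (m (j + 1) - m j) :=
    sum_pos (fun j hj => sub_pos.2 (h.mono j (mem_range.1 hj))) ⟨0, mem_range.2 h.pos⟩
  linarith

lemma Active.env_piece (h : Active N m f) {j : ℕ} (hj : j ≤ N) {x : ℝ}
    (h1 : vtx N m (fun i => f (m i)) j ≤ x) (h2 : x ≤ vtx N m (fun i => f (m i)) (j + 1)) :
    env (slopes N m) (slopes_nonempty N m) f x = f (m j) - m j * x := by
  set w : ℕ → ℝ := fun i => f (m i)
  refine le_antisymm (env_le (mem_image.2 ⟨j, mem_range.2 (by omega), rfl⟩) x) ?_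
  rw [env, Finset.le_inf'_iff]
  intro a ha
  obtain ⟨i, hi, rfl⟩ := mem_image.1 ha
  have hiN : i ≤ N := Nat.lt_succ_iff.1 (mem_range.1 hi)
  have up : ∀ n, j ≤ n → n ≤ N → w j - m j * x ≤ w n - m n * x := by
    intro n hn
    induction n, hn using Nat.le_induction with
    | base => intro _; exact le_rfl
    | succ n hn ih =>
      intro hnN
      refine (ih (by omega)).trans ?_
      have hx : x ≤ (w (n + 1) - w n) / (m (n + 1) - m n) :=
        h2.trans ((h.vtx_le (show j + 1 ≤ n + 1 by omega) (by omega)).trans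
          (le_of_eq (vtx_succ m w (by omega))))
      rw [le_div_iff₀ (sub_pos.2 (h.mono n (by omega)))] at hx
      linarith
  have down : ∀ k n, n + k = j → w j - m j * x ≤ w n - m n * x := by
    intro k
    induction k with
    | zero => intro n hn; rw [show n = j by omega]
    | succ k ih =>
      intro n hn
      refine (ih (n + 1) (by omega)).trans ?_
      have hx : (w (n + 1) - w n) / (m (n + 1) - m n) ≤ x :=
        (le_of_eq (vtx_succ m w (by omega)).symm).trans
          ((h.vtx_le (show n + 1 ≤ j by omega) (by omega)).trans h1)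
      rw [div_le_iff₀ (sub_pos.2 (h.mono n (by omega)))] at hx
      linarith
  rcases le_total j i with hji | hji
  · exact up i hji hiN
  · exact down (j - i) i (by omega)

lemma Active.env_ends (h : Active N m f) :
    env (slopes N m) (slopes_nonempty N m) f (-((f (m 0) + f (m N)) / (m N - m 0)))
        = f (m 0) + m 0 * ((f (m 0) + f (m N)) / (m N - m 0)) ∧
    env (slopes N m) (slopes_nonempty N m) f ((f (m 0) + f (m N)) / (m N - m 0))
        = f (m N) - m N * ((f (m 0) + f (m N)) / (m N - m 0)) := by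
  constructor
  · rw [h.env_piece (Nat.zero_le N) (le_of_eq (vtx_zero N m fun i => f (m i)))
      (le_trans (le_of_eq (vtx_zero N m fun i => f (m i)).symm) (h.inc 0 (Nat.zero_le N)).le)]
    ring
  · rw [h.env_piece le_rfl (le_trans (h.inc N le_rfl).le (le_of_eq (vtx_last N m fun i => f (m i))))
      (le_of_eq (vtx_last N m fun i => f (m i)).symm)]

lemma Active.hgt_end (h : Active N m f) :
    hgt (slopes N m) (slopes_nonempty N m) f ((f (m 0) + f (m N)) / (m N - m 0)) = 0 := by
  have hW : m N - m 0 ≠ 0 := (sub_pos.2 h.slope_lt).ne'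
  rw [hgt, h.env_ends.1, h.env_ends.2]
  field_simp
  ring

lemma integral_inner {F : ℝ → ℝ} (hF : Continuous F) {X R : ℝ} (hXR : X ≤ R) (hX0 : 0 ≤ X)
    (h0 : ∀ x, X ≤ |x| → F x = 0) : ∫ x in -R..R, F x = ∫ x in -X..X, F x := by
  have z1 : ∫ x in -R..-X, F x = 0 := by
    rw [intervalIntegral.integral_congr (g := fun _ => (0 : ℝ)), intervalIntegral.integral_zero]
    intro x hx
    rw [Set.uIcc_of_le (by linarith)] at hx
    exact h0 x (by rw [abs_of_nonpos (by linarith [hx.2])]; linarith [hx.2])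
  have z2 : ∫ x in X..R, F x = 0 := by
    rw [intervalIntegral.integral_congr (g := fun _ => (0 : ℝ)), intervalIntegral.integral_zero]
    intro x hx
    rw [Set.uIcc_of_le hXR] at hx
    exact h0 x (hx.1.trans (le_abs_self x))
  rw [← intervalIntegral.integral_add_adjacent_intervals (a := -R) (b := -X) (c := R)
    (hF.intervalIntegrable _ _) (hF.intervalIntegrable _ _), z1,
    ← intervalIntegral.integral_add_adjacent_intervals (a := -X) (b := X) (c := R)
    (hF.intervalIntegrable _ _) (hF.intervalIntegrable _ _), z2, zero_add, add_zero]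

/-- The area of an active list is the quadratic form. -/
lemma Active.area_eq (h : Active N m f) (hf : ∀ j ≤ N, 0 < f (m j)) {R : ℝ}
    (hR : (f (m 0) + f (m N)) / (m N - m 0) ≤ R) :
    area (slopes N m) (slopes_nonempty N m) f R
      = bil N m (fun i => f (m i)) (fun i => f (m i)) := by
  set w : ℕ → ℝ := fun i => f (m i)
  set p : ℕ → ℝ := vtx N m w with hp
  set X := (f (m 0) + f (m N)) / (m N - m 0) with hX
  set U := env (slopes N m) (slopes_nonempty N m) f with hU
  have hW : 0 < m N - m 0 := sub_pos.2 h.slope_lt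
  have hX0 : 0 ≤ X := div_nonneg (by linarith [hf 0 (Nat.zero_le N), hf N le_rfl]) hW.le
  have hlast : p (N + 1) = X := vtx_last N m w
  have hfirst : p 0 = -X := vtx_zero N m w
  rw [area, integral_inner (continuous_hgt.max continuous_const) hR hX0]
  swap
  · intro x hx
    refine max_eq_right (hgt_nonpos_of_far (mem_image.2 ⟨0, mem_range.2 (by omega), rfl⟩)
      (mem_image.2 ⟨N, mem_range.2 (by omega), rfl⟩) h.slope_lt ?_)
    rw [hX, div_le_iff₀ hW] at hx
    linarith
  rw [intervalIntegral.integral_congr (g := fun x => U x + U (-x))]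
  swap
  · intro x hx
    rw [Set.uIcc_of_le (by linarith)] at hx
    exact max_eq_left (hgt_nonneg h.hgt_end (abs_le.2 hx))
  have hUc : Continuous U := continuous_env
  have hUn : Continuous fun x => U (-x) := hUc.comp continuous_neg
  rw [intervalIntegral.integral_add (hUc.intervalIntegrable _ _) (hUn.intervalIntegrable _ _),
    intervalIntegral.integral_comp_neg, neg_neg, ← hlast,
    show -p (N + 1) = p 0 by rw [hlast, hfirst],
    ← intervalIntegral.sum_integral_adjacent_intervals fun k _ =>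
      (hUc.intervalIntegrable (p k) (p (k + 1))),
    ← sum_add_distrib, bil_eq_sum]
  have hpiece : ∀ j ∈ range (N + 1), (∫ x in p j..p (j + 1), U x) + ∫ x in p j..p (j + 1), U x
      = w j * (p (j + 1) - p j) + (p (j + 1) * U (p (j + 1)) - p j * U (p j)) := by
    intro j hj
    have hjN : j ≤ N := Nat.lt_succ_iff.1 (mem_range.1 hj)
    have hle := (h.inc j hjN).le
    rw [intervalIntegral.integral_congr (g := fun x => w j - m j * x) (fun x hx => by
        rw [Set.uIcc_of_le hle] at hx
        exact h.env_piece hjN hx.1 hx.2),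
      intervalIntegral.integral_sub intervalIntegrable_const
        ((continuous_const_mul (m j)).intervalIntegrable _ _),
      intervalIntegral.integral_const, intervalIntegral.integral_const_mul, integral_id,
      hU, h.env_piece hjN hle le_rfl, h.env_piece hjN le_rfl hle, smul_eq_mul]
    ring
  rw [sum_congr rfl hpiece, sum_add_distrib, sum_range_sub (fun j => p j * U (p j))]
  have he := h.hgt_end
  rw [hgt] at he
  simp only [hlast, hfirst, hU]
  linear_combination X * he

lemma env_mono_set (h : T ⊆ S) (x : ℝ) : env S hS f x ≤ env T hT f x :=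
  Finset.inf'_mono _ h hT

lemma Active.area_le (h : Active N m f) (hf : ∀ j ≤ N, 0 < f (m j)) (hsub : slopes N m ⊆ S)
    {R : ℝ} (hR0 : 0 ≤ R) (hR : (f (m 0) + f (m N)) / (m N - m 0) ≤ R) :
    area S hS f R ≤ bil N m (fun i => f (m i)) (fun i => f (m i)) := by
  rw [← h.area_eq hf hR]
  refine intervalIntegral.integral_mono_on (by linarith)
    ((continuous_hgt.max continuous_const).intervalIntegrable _ _)
    ((continuous_hgt.max continuous_const).intervalIntegrable _ _) fun x _ => ?_
  exact max_le_max (add_le_add (env_mono_set hsub x) (env_mono_set hsub (-x))) le_rfl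

end poly

/-- The active list of a family. -/
lemma exists_active (hf : ∀ m ∈ S, 0 < f m) {a b : ℝ} (ha : a ∈ S) (hb : b ∈ S) (hab : a < b) :
    ∃ (N : ℕ) (m : ℕ → ℝ), Active N m f ∧ slopes N m ⊆ S ∧
      ∀ R, (f (m 0) + f (m N)) / (m N - m 0) ≤ R →
        area S hS f R = area (slopes N m) (slopes_nonempty N m) f R := by
  classical
  set R₀ := (f a + f b) / (b - a)
  have hba : 0 < b - a := sub_pos.2 hab
  have hR₀ : 0 ≤ R₀ := div_nonneg (by linarith [hf a ha, hf b hb]) hba.le
  obtain ⟨X, ⟨hX0, -⟩, hX⟩ := intermediate_value_Icc' hR₀ continuous_hgt.continuousOn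
    (show (0 : ℝ) ∈ Set.Icc (hgt S hS f R₀) (hgt S hS f 0) from
      ⟨hgt_nonpos_of_far ha hb hab (by
        rw [abs_of_nonneg hR₀, mul_div_cancel₀ _ hba.ne']),
        (hgt_zero_pos hf).le⟩)
  have hXpos : 0 < X := lt_of_le_of_ne hX0 fun h => (hgt_zero_pos (hS := hS) hf).ne' (h ▸ hX)
  set I : ℝ → Set ℝ := fun i => {x | x ∈ Set.Icc (-X) X ∧ env S hS f x = f i - i * x} with hI
  have hIc : ∀ i, IsCompact (I i) := fun i =>
    isCompact_Icc.of_isClosed_subset (isClosed_Icc.inter
      (isClosed_eq continuous_env (by fun_prop))) fun x hx => hx.1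
  have hord : ∀ i ∈ S, ∀ k ∈ S, i < k → ∀ x ∈ I i, ∀ y ∈ I k, x ≤ y := by
    intro i hi k hk hik x hx y hy
    have e1 := env_le (hS := hS) (f := f) hk x
    have e2 := env_le (hS := hS) (f := f) hi y
    rw [hx.2] at e1
    rw [hy.2] at e2
    nlinarith
  set J := S.filter fun i => ∃ x ∈ I i, ∃ y ∈ I i, x < y with hJ
  have hcov : ∀ u v, -X ≤ u → v ≤ X → u < v → ∃ x ∈ Set.Ioo u v, ∃ k ∈ J, x ∈ I k := by
    intro u v hu hv huv
    have hfin : (⋃ i ∈ S \ J, I i).Finite := by
      refine Set.Finite.biUnion (Finset.finite_toSet _) fun i hi => Set.Subsingleton.finite ?_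
      intro x hx y hy
      simp only [Finset.mem_coe, mem_sdiff, hJ, mem_filter, not_and, not_exists] at hi
      have h1 := hi.2 hi.1
      rcases lt_trichotomy x y with h | h | h
      · exact absurd h (h1 x hx y hy)
      · exact h
      · exact absurd h (h1 y hy x hx)
    obtain ⟨x, hx, hxn⟩ := ((Set.Ioo_infinite huv).sdiff hfin).nonempty
    obtain ⟨k, hk, hk'⟩ := S.exists_mem_eq_inf' hS fun m => f m - m * x
    have hxk : x ∈ I k := ⟨⟨by linarith [hx.1], by linarith [hx.2]⟩, hk'⟩
    refine ⟨x, hx, k, ?_, hxk⟩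
    by_contra hkJ
    exact hxn (Set.mem_iUnion₂.2 ⟨k, mem_sdiff.2 ⟨hk, hkJ⟩, hxk⟩)
  have hJne : J.Nonempty := by
    obtain ⟨x, -, k, hk, -⟩ := hcov (-X) X le_rfl le_rfl (by linarith)
    exact ⟨k, hk⟩
  obtain ⟨N, hN⟩ : ∃ N, J.card = N + 1 :=
    ⟨J.card - 1, by have := hJne.card_pos; omega⟩
  set e := J.orderEmbOfFin hN
  set m : ℕ → ℝ := fun j => if h : j < N + 1 then e ⟨j, h⟩ else 0 with hm
  have hmJ : ∀ j ≤ N, m j ∈ J := fun j hj => by
    simp only [hm, dif_pos (Nat.lt_succ_of_le hj)]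
    exact J.orderEmbOfFin_mem hN _
  have hmS : ∀ j ≤ N, m j ∈ S := fun j hj => (mem_filter.1 (hmJ j hj)).1
  have hlt : ∀ i j, i < j → j ≤ N → m i < m j := by
    intro i j hij hj
    simp only [hm, dif_pos (show i < N + 1 by omega), dif_pos (show j < N + 1 by omega)]
    exact e.strictMono hij
  have hsurj : ∀ k ∈ J, ∃ j ≤ N, m j = k := by
    intro k hk
    have : k ∈ Set.range e := by rw [J.range_orderEmbOfFin hN]; exact hk
    obtain ⟨⟨j, hj⟩, rfl⟩ := this
    exact ⟨j, Nat.lt_succ_iff.1 hj, by simp only [hm, dif_pos hj]⟩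
  set lo : ℕ → ℝ := fun j => sInf (I (m j))
  set hi : ℕ → ℝ := fun j => sSup (I (m j))
  have hne : ∀ j ≤ N, (I (m j)).Nonempty := fun j hj => by
    obtain ⟨x, hx, -⟩ := (mem_filter.1 (hmJ j hj)).2
    exact ⟨x, hx⟩
  have hlom : ∀ j ≤ N, lo j ∈ I (m j) := fun j hj => (hIc _).sInf_mem (hne j hj)
  have hhim : ∀ j ≤ N, hi j ∈ I (m j) := fun j hj => (hIc _).sSup_mem (hne j hj)
  have hle_hi : ∀ j, ∀ x ∈ I (m j), x ≤ hi j := fun j x hx => le_csSup (hIc _).bddAbove hx
  have hlo_le : ∀ j, ∀ x ∈ I (m j), lo j ≤ x := fun j x hx => csInf_le (hIc _).bddBelow hx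
  have hlohi : ∀ j ≤ N, lo j < hi j := by
    intro j hj
    obtain ⟨x, hx, y, hy, hxy⟩ := (mem_filter.1 (hmJ j hj)).2
    exact lt_of_le_of_lt (hlo_le j x hx) (lt_of_lt_of_le hxy (hle_hi j y hy))
  have hbefore : ∀ l j, l ≤ j → j ≤ N → ∀ x ∈ I (m l), x ≤ hi j := by
    intro l j hlj hj x hx
    rcases eq_or_lt_of_le hlj with rfl | h
    · exact hle_hi _ x hx
    · exact hord _ (hmS l (by omega)) _ (hmS j hj) (hlt l j h hj) x hx _ (hhim j hj)
  have hafter : ∀ l j, j ≤ l → l ≤ N → ∀ x ∈ I (m l), lo j ≤ x := by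
    intro l j hjl hl x hx
    rcases eq_or_lt_of_le hjl with rfl | h
    · exact hlo_le _ x hx
    · exact hord _ (hmS j (by omega)) _ (hmS l hl) (hlt j l h hl) _ (hlom j (by omega)) x hx
  have hnext : ∀ j < N, hi j = lo (j + 1) := by
    intro j hj
    have hle : hi j ≤ lo (j + 1) := hord _ (hmS j (by omega)) _ (hmS _ hj)
      (hlt j (j + 1) (by omega) hj) _ (hhim j (by omega)) _ (hlom _ hj)
    refine le_antisymm hle (not_lt.1 fun hgap => ?_)
    obtain ⟨x, hx, k, hk, hxk⟩ :=
      hcov _ _ (hhim j (by omega)).1.1 (hlom (j + 1) hj).1.2 hgap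
    obtain ⟨l, hl, rfl⟩ := hsurj k hk
    rcases le_or_gt l j with hlj | hlj
    · linarith [hbefore l j hlj (by omega) x hxk, hx.1]
    · linarith [hafter l (j + 1) hlj hl x hxk, hx.2]
  have hfirst : lo 0 = -X := by
    refine le_antisymm (not_lt.1 fun hgap => ?_) (hlom 0 (Nat.zero_le N)).1.1
    obtain ⟨x, hx, k, hk, hxk⟩ := hcov _ _ le_rfl (hlom 0 (Nat.zero_le N)).1.2 hgap
    obtain ⟨l, hl, rfl⟩ := hsurj k hk
    linarith [hafter l 0 (Nat.zero_le l) hl x hxk, hx.2]
  have hlast : hi N = X := by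
    refine le_antisymm (hhim N le_rfl).1.2 (not_lt.1 fun hgap => ?_)
    obtain ⟨x, hx, k, hk, hxk⟩ := hcov _ _ (hhim N le_rfl).1.1 le_rfl hgap
    obtain ⟨l, hl, rfl⟩ := hsurj k hk
    linarith [hbefore l N hl le_rfl x hxk, hx.1]
  have hsum : f (m 0) + m 0 * X + (f (m N) - m N * X) = 0 := by
    have h1 := (hlom 0 (Nat.zero_le N)).2
    have h2 := (hhim N le_rfl).2
    rw [hfirst] at h1
    rw [hlast] at h2
    rw [hgt, h1, h2] at hX
    linarith
  have hN1 : 1 ≤ N := by
    by_contra h
    obtain rfl : N = 0 := by omega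
    linarith [hf _ (hmS 0 le_rfl)]
  have hW : 0 < m N - m 0 := sub_pos.2 (hlt 0 N (by omega) le_rfl)
  have hXe : (f (m 0) + f (m N)) / (m N - m 0) = X := by
    rw [div_eq_iff hW.ne']; linarith
  have hv0 : vtx N m (fun i => f (m i)) 0 = lo 0 := by rw [vtx_zero, hXe, hfirst]
  have hv : ∀ j ≤ N, vtx N m (fun i => f (m i)) (j + 1) = hi j := by
    intro j hj
    rcases eq_or_lt_of_le hj with rfl | h
    · rw [vtx_last, hXe, hlast]
    · rw [vtx_succ m _ h, div_eq_iff (sub_pos.2 (hlt j (j + 1) (by omega) h)).ne']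
      have h1 := (hhim j hj).2
      have h2 := (hlom (j + 1) h).2
      rw [← hnext j h] at h2
      linarith
  have hAct : Active N m f := by
    refine ⟨hN1, fun j hj => hlt j (j + 1) (by omega) hj, fun j hj => ?_⟩
    rw [hv j hj]
    rcases Nat.eq_zero_or_pos j with rfl | h
    · rw [hv0]; exact hlohi 0 hj
    · obtain ⟨i, rfl⟩ : ∃ i, j = i + 1 := ⟨j - 1, by omega⟩
      rw [hv i (by omega), hnext i (by omega)]
      exact hlohi _ hj
  have hsub : slopes N m ⊆ S := by
    intro k hk
    obtain ⟨j, hj, rfl⟩ := mem_image.1 hk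
    exact hmS j (Nat.lt_succ_iff.1 (mem_range.1 hj))
  refine ⟨N, m, hAct, hsub, fun R _ => ?_⟩
  have hJS : J = slopes N m := by
    ext k
    refine ⟨fun hk => ?_, fun hk => ?_⟩
    · obtain ⟨j, hj, rfl⟩ := hsurj k hk
      exact mem_image.2 ⟨j, mem_range.2 (by omega), rfl⟩
    · obtain ⟨j, hj, rfl⟩ := mem_image.1 hk
      exact hmJ j (Nat.lt_succ_iff.1 (mem_range.1 hj))
  have heq : Set.EqOn (env S hS f) (env (slopes N m) (slopes_nonempty N m) f)
      (Set.Icc (-X) X) := by
    have hclosed : IsClosed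
        {x | env S hS f x = env (slopes N m) (slopes_nonempty N m) f x} :=
      isClosed_eq continuous_env continuous_env
    intro x hx
    refine hclosed.closure_subset (show x ∈ closure _ from ?_)
    rw [mem_closure_iff_nhds]
    intro t ht
    obtain ⟨ε, hε, hball⟩ := Metric.mem_nhds_iff.1 ht
    obtain ⟨y, hy, k, hk, hyk⟩ := hcov (max (-X) (x - ε)) (min X (x + ε)) (le_max_left _ _)
      (min_le_left _ _) (by
        rw [max_lt_iff, lt_min_iff, lt_min_iff]
        exact ⟨⟨by linarith, by linarith [hx.1]⟩, by linarith [hx.2], by linarith⟩)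
    refine ⟨y, hball ?_, le_antisymm (env_mono_set hsub y) ?_⟩
    · rw [Metric.mem_ball, Real.dist_eq, abs_lt]
      exact ⟨by linarith [hy.1, le_max_right (-X) (x - ε)],
        by linarith [hy.2, min_le_right X (x + ε)]⟩
    · rw [hyk.2]
      exact env_le (hJS ▸ hk) y
  refine intervalIntegral.integral_congr fun x _ => ?_
  show max (hgt S hS f x) 0 = max (hgt (slopes N m) (slopes_nonempty N m) f x) 0
  rcases le_or_gt |x| X with hx | hx
  · obtain ⟨h1, h2⟩ := abs_le.1 hx
    rw [hgt, hgt, heq ⟨h1, h2⟩, heq ⟨by linarith, by linarith⟩]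
  · have h1 : hgt (slopes N m) (slopes_nonempty N m) f x ≤ 0 :=
      hgt_nonpos_of_far (mem_image.2 ⟨0, mem_range.2 (by omega), rfl⟩)
        (mem_image.2 ⟨N, mem_range.2 (by omega), rfl⟩) hAct.slope_lt (by
          have := mul_le_mul_of_nonneg_left hx.le hW.le
          linarith)
    have h2 : hgt S hS f x ≤ 0 :=
      le_trans (add_le_add (env_mono_set hsub x) (env_mono_set hsub (-x))) h1
    rw [max_eq_right h1, max_eq_right h2]

end Vale.Agent.P227
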